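import Mathlib.Analysis.Complex.Harmonic.MeanValue
import Mathlib.Analysis.InnerProductSpace.Harmonic.Constructions
import Mathlib.Topology.Semicontinuity.Basic

/-! Liouville's theorem for subharmonic functions on the plane. -/

open Set Metric Filter Real InnerProductSpace
open scoped Topology

namespace Vale.Agent.N300

theorem avg_sq (c : ℂ) {r : ℝ} (hr : 0 < r) :
    circleAverage (fun z : ℂ => ‖z‖ ^ 2) c r = ‖c‖ ^ 2 + r ^ 2 := by
  have h : HarmonicOnNhd (fun z : ℂ => (2 * (starRingEnd ℂ) c * z + (r ^ 2 - ‖c‖ ^ 2 : ℝ)).re)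
      (closedBall c |r|) := fun z _ => AnalyticAt.harmonicAt_re (by fun_prop)
  rw [circleAverage_congr_sphere (f₂ := fun z : ℂ =>
    (2 * (starRingEnd ℂ) c * z + (r ^ 2 - ‖c‖ ^ 2 : ℝ)).re), h.circleAverage_eq]
  · rw [Complex.add_re, Complex.ofReal_re, Complex.sq_norm, Complex.normSq_apply]
    simp; ring
  · intro z hz
    rw [mem_sphere_iff_norm, abs_of_pos hr] at hz
    simp only
    rw [← hz, Complex.add_re, Complex.ofReal_re, Complex.sq_norm, Complex.sq_norm, Complex.sq_norm,
      Complex.normSq_apply, Complex.normSq_apply, Complex.normSq_apply]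
    simp; ring

theorem max_principle {K : Set ℂ} (hK : IsCompact K) {u : ℂ → ℝ} (hu : UpperSemicontinuousOn u K)
    (hs : ∀ c ∈ interior K, ∃ r > 0, closedBall c r ⊆ K ∧ CircleIntegrable u c r ∧
      u c ≤ circleAverage u c r) {m : ℝ} (hm : ∀ z ∈ K, z ∉ interior K → u z ≤ m) :
    ∀ z ∈ K, u z ≤ m := fun z hz => by
  obtain ⟨B, hB⟩ := hK.isBounded.exists_norm_le
  have key : ∀ η > 0, u z ≤ m + η * B ^ 2 := fun η hη => by
    have hc : Continuous fun z : ℂ => η * ‖z‖ ^ 2 := by fun_prop
    obtain ⟨a, ha, hmax⟩ := (hu.add hc.continuousOn.upperSemicontinuousOn).exists_isMaxOn ⟨z, hz⟩ hK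
    have h1 : a ∉ interior K := fun h => by
      obtain ⟨r, hr, h2, h3, h4⟩ := hs a h
      have i2 : CircleIntegrable (fun z : ℂ => η * ‖z‖ ^ 2) a r :=
        hc.continuousOn.circleIntegrable'
      have h5 := circleAverage_mono_on_of_le_circle (h3.add i2) (a := u a + η * ‖a‖ ^ 2)
        fun w hw => hmax (h2 (sphere_subset_closedBall (by rwa [abs_of_pos hr] at hw)))
      rw [circleAverage_add h3 i2] at h5
      have h6 : circleAverage (fun z : ℂ => η * ‖z‖ ^ 2) a r = η * (‖a‖ ^ 2 + r ^ 2) := by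
        rw [← avg_sq a hr]
        exact circleAverage_fun_smul (𝕜 := ℝ) (a := η) (f := fun z : ℂ => ‖z‖ ^ 2)
      rw [h6] at h5
      nlinarith [mul_pos hη (pow_pos hr 2)]
    have h2 : u z + η * ‖z‖ ^ 2 ≤ u a + η * ‖a‖ ^ 2 := hmax hz
    have h3 : ‖a‖ ^ 2 ≤ B ^ 2 := pow_le_pow_left₀ (norm_nonneg _) (hB a ha) 2
    nlinarith [hm a ha h1, mul_nonneg hη.le (sq_nonneg ‖z‖), mul_le_mul_of_nonneg_left h3 hη.le]
  refine le_of_forall_pos_le_add fun ε hε => (key (ε / (B ^ 2 + 1)) (by positivity)).trans ?_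
  rw [add_le_add_iff_left, div_mul_eq_mul_div, div_le_iff₀ (by positivity)]
  nlinarith

/-- An upper semicontinuous function on the plane which has the sub-mean value property and is
bounded above is constant. -/
theorem liouville {u : ℂ → ℝ} (hu : UpperSemicontinuous u)
    (hs : ∀ c, ∀ r > 0, CircleIntegrable u c r ∧ u c ≤ circleAverage u c r) {M : ℝ}
    (hM : ∀ z, u z ≤ M) (z a : ℂ) : u z = u a := by
  suffices H : ∀ z a, u z ≤ u a from le_antisymm (H z a) (H a z)
  intro z a
  refine le_of_forall_gt_imp_ge_of_dense fun m hm => ?_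
  obtain ⟨δ, hδ, hb⟩ := nhds_basis_closedBall.eventually_iff.1 (hu a m hm)
  by_cases hz : z ∈ closedBall a δ
  · exact (hb hz).le
  have hz' : δ < ‖z - a‖ := by rwa [mem_closedBall_iff_norm, not_le] at hz
  have key : ∀ ε > 0, u z ≤ m + ε * (log ‖z - a‖ - log δ) := fun ε hε => by
    set R := max ‖z - a‖ (δ * exp ((M - m) / ε)) with hR
    have hh : ∀ w, w ≠ a → HarmonicAt (fun w => log ‖w - a‖) w := fun w hw =>
      AnalyticAt.harmonicAt_log_norm (f := fun w => w - a) (by fun_prop) (sub_ne_zero.2 hw)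
    have hne : ∀ w ∈ closedBall a R \ ball a δ, w ≠ a := fun w hw h =>
      hw.2 (h ▸ mem_ball_self hδ)
    have hc : ContinuousOn (fun w => -(ε * (log ‖w - a‖ - log δ))) (closedBall a R \ ball a δ) :=
      fun w hw => ((((hh w (hne w hw)).1.continuousAt.sub continuousAt_const).const_mul
        ε).neg).continuousWithinAt
    have := max_principle ((isCompact_closedBall a R).diff isOpen_ball)
      ((hu.upperSemicontinuousOn _).add hc.upperSemicontinuousOn) (m := m) ?_ ?_ z
      ⟨mem_closedBall_iff_norm.2 (le_max_left _ _), fun h => hz (ball_subset_closedBall h)⟩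
    · linarith
    · intro c hc'
      obtain ⟨r, hr, h1⟩ := nhds_basis_closedBall.mem_iff.1 (mem_interior_iff_mem_nhds.1 hc')
      have i2 := (hc.mono (sphere_subset_closedBall.trans h1)).circleIntegrable hr.le
      refine ⟨r, hr, h1, (hs c r hr).1.add i2, ?_⟩
      rw [circleAverage_fun_add (hs c r hr).1 i2]
      have h2 : HarmonicOnNhd (fun w => -(ε * (log ‖w - a‖ - log δ))) (closedBall c |r|) := by
        intro w hw
        rw [abs_of_pos hr] at hw
        exact (((hh w (hne w (h1 hw))).sub (harmonicAt_const _)).const_smul (c := ε)).neg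
      rw [h2.circleAverage_eq]
      exact add_le_add (hs c r hr).2 le_rfl
    · intro w hw hw'
      have h1 : δ ≤ ‖w - a‖ := not_lt.1 fun h => hw.2 (mem_ball_iff_norm.2 h)
      rcases h1.eq_or_lt with h2 | h2
      · rw [← h2, sub_self, mul_zero, neg_zero, add_zero]
        exact (hb (mem_closedBall_iff_norm.2 h2.ge)).le
      have h3 : R ≤ ‖w - a‖ := not_lt.1 fun h => hw' (mem_interior.2
        ⟨ball a R \ closedBall a δ, sdiff_subset_sdiff ball_subset_closedBall
          ball_subset_closedBall, isOpen_ball.sdiff isClosed_closedBall, mem_ball_iff_norm.2 h,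
          fun h4 => absurd (mem_closedBall_iff_norm.1 h4) (not_le.2 h2)⟩)
      have h4 := log_le_log (by positivity) ((le_max_right _ _).trans h3)
      rw [log_mul hδ.ne' (exp_pos _).ne', log_exp, ← le_sub_iff_add_le', div_le_iff₀' hε] at h4
      linarith [hM w]
  have h0 : 0 ≤ log ‖z - a‖ - log δ := sub_nonneg.2 (log_le_log hδ hz'.le)
  refine le_of_forall_pos_le_add fun ε hε =>
    (key (ε / (log ‖z - a‖ - log δ + 1)) (by positivity)).trans ?_
  rw [add_le_add_iff_left, div_mul_eq_mul_div, div_le_iff₀ (by positivity)]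
  nlinarith

end Vale.Agent.N300
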