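import Vale.Agent.N300.Defs
import Vale.Agent.N300.Sub
import Vale.Agent.P300.Final.Old

/-! Chains of rational curves in the universal covering. -/

open Set Filter Metric
open scoped Manifold ContDiff Topology

namespace Vale.Agent.N300

open Vale.Agent.P300

variable {E : Type} [NormedAddCommGroup E] [NormedSpace ℂ E]
  {V : Type} [TopologicalSpace V] [ChartedSpace E V]

theorem OnRationalCurve.symm {a b : V} (h : OnRationalCurve E a b) : OnRationalCurve E b a :=
  let ⟨f, h1, h2, h3, h4⟩ := h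
  ⟨f, h1, h2, h4, h3⟩

theorem hol_const {a b : V} (h : Relation.ReflTransGen (OnRationalCurve E) a b) {g : V → ℂ}
    (hg : ContMDiff 𝓘(ℂ, E) 𝓘(ℂ) ω g) : g b = g a := by
  induction h with
  | refl => rfl
  | tail _ h ih =>
    obtain ⟨f, h1, ⟨y, h2⟩, ⟨s, rfl⟩, ⟨t, rfl⟩⟩ := h
    have h3 : Differentiable ℂ (g ∘ f) := (hg.comp h1).contDiff.differentiable (by simp)
    have h4 := fun w => h3.apply_eq_of_tendsto_cocompact w ((hg.continuous.tendsto y).comp h2)
    rw [← ih]
    exact (h4 t).trans (h4 s).symm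

theorem psh_const {a b : V} (h : Relation.ReflTransGen (OnRationalCurve E) a b) {φ : V → ℝ}
    (hφ : IsPsh E φ) : φ b = φ a := by
  induction h with
  | refl => rfl
  | tail _ h ih =>
    obtain ⟨f, h1, ⟨y, h2⟩, ⟨s, rfl⟩, ⟨t, rfl⟩⟩ := h
    obtain ⟨m, -, hm⟩ := (hφ.1.upperSemicontinuousOn _).exists_isMaxOn (insert_nonempty _ _)
      (h2.isCompact_insert_range_of_cocompact h1.continuous)
    rw [← ih]
    refine liouville (u := φ ∘ f) (hφ.1.comp h1.continuous) (fun c r _ => ?_) (M := φ m)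
      (fun z => hm (Or.inr ⟨z, rfl⟩)) t s
    have h3 : ContMDiff 𝓘(ℂ) 𝓘(ℂ) ω fun z : ℂ => r * z + c := ContDiff.contMDiff (by fun_prop)
    obtain ⟨h4, h5⟩ := hφ.2 _ univ isOpen_univ (subset_univ _) (h1.comp h3).contMDiffOn
    rw [Real.circleAverage_eq_circleAverage_zero_one]
    refine ⟨?_, by simpa [Function.comp_def] using h5⟩
    unfold CircleIntegrable at h4 ⊢
    convert h4 using 2 with θ
    simp [circleMap, add_comm]

theorem norm_psh {g : V → ℂ} (hg : ContMDiff 𝓘(ℂ, E) 𝓘(ℂ) ω g) : IsPsh E fun y => ‖g y‖ := by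
  refine ⟨hg.continuous.norm.upperSemicontinuous, fun f U hU h1 h2 => ?_⟩
  have h3 : DifferentiableOn ℂ (g ∘ f) U :=
    (hg.comp_contMDiffOn h2).contDiffOn.differentiableOn (by simp)
  have h4 : ContinuousOn (g ∘ f) (sphere 0 1) :=
    h3.continuousOn.mono (sphere_subset_closedBall.trans h1)
  refine ⟨h4.norm.circleIntegrable zero_le_one, ?_⟩
  have h5 : Real.circleAverage (g ∘ f) 0 1 = (g ∘ f) 0 :=
    DiffContOnCl.circleAverage (DifferentiableOn.diffContOnCl (h3.mono (by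
      rw [abs_one, closure_ball _ one_ne_zero]; exact h1)))
  refine (congrArg norm h5).ge.trans ?_
  rw [Real.circleAverage_def, Real.circleAverage_def, norm_smul, Real.norm_eq_abs,
    abs_of_pos (by positivity), smul_eq_mul]
  exact mul_le_mul_of_nonneg_left
    (intervalIntegral.norm_integral_le_integral_norm (by positivity)) (by positivity)

variable {X : Type} [TopologicalSpace X] [ChartedSpace E X]

theorem chn_chain {p : V → X} (hp : IsHolomorphicCovering E p) {ι : Type} {α α' : ι → C(ℂ, X)}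
    (hα : ∀ i, ContMDiff 𝓘(ℂ) 𝓘(ℂ, E) ω (α i))
    (hinv : ∀ (i : ι) (w : ℂ), w ≠ 0 → α i w = α' i w⁻¹) {a b : V}
    (h : H527.Chn (A := fun _ : ι => ℂ) α p a b) :
    Relation.ReflTransGen (OnRationalCurve E) a b := by
  induction h with
  | base => exact .refl
  | step i L hL s t _ ih =>
    refine ih.tail ⟨L, H673.lift_holomorphic hp.2.2 (hα i) L.continuous fun a => congrFun hL a,
      ?_, ⟨s, rfl⟩, ⟨t, rfl⟩⟩
    have h1 : p (L 1) = α' i 1 := by
      have := congrFun hL 1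
      simp only [Function.comp_apply] at this
      rw [this, hinv i 1 one_ne_zero, inv_one]
    obtain ⟨L', ⟨hL'1, hL'⟩, -⟩ := hp.1.existsUnique_continuousMap_lifts (α' i) 1 (L 1) h1
    have h2 : EqOn L (fun w => L' w⁻¹) {0}ᶜ := by
      refine hp.1.eqOn_of_comp_eqOn H673.preconn_ne_zero L.continuous.continuousOn ?_ ?_
        (a := (1 : ℂ)) (by simp) (by simp [hL'1])
      · exact L'.continuous.comp_continuousOn continuousOn_inv₀
      · intro w hw
        have h3 := congrFun hL w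
        have h4 := congrFun hL' w⁻¹
        simp only [Function.comp_apply] at h3 h4 ⊢
        rw [h3, h4, hinv i w hw]
    have h3 : Tendsto (fun w : ℂ => w⁻¹) (cocompact ℂ) (𝓝 0) := by
      rw [← Metric.cobounded_eq_cocompact]; exact tendsto_inv₀_cobounded
    refine ⟨L' 0, ((L'.continuous.tendsto 0).comp h3).congr' ?_⟩
    filter_upwards [isCompact_singleton.compl_mem_cocompact (s := {0})] with w hw
    exact (h2 hw).symm

theorem infinite_chain [SimplyConnectedSpace V] {p : V → X} (hp : IsHolomorphicCovering E p)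
    (h : H232.Chains E X) : ∃ y₀ : V,
      {y | p y = p y₀ ∧ Relation.ReflTransGen (OnRationalCurve E) y₀ y}.Infinite := by
  classical
  obtain ⟨ι, α, α', D, hα, hinv, hD, tower⟩ := h
  have : LocallyPathConnectedSpace V := ChartedSpace.locallyPathConnectedSpace E V
  have h1 : ∃ x₀ ∈ D, ∀ N : ℕ, ∃ (Z : Type) (_ : TopologicalSpace Z) (q : Z → X)
      (_ : IsCoveringMap q) (z₀ : Z) (S : Finset Z), q z₀ = x₀ ∧ N ≤ S.card ∧
      ∀ z ∈ S, H527.Chn (A := fun _ : ι => ℂ) α q z₀ z ∧ q z ∈ D := by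
    by_contra hc
    push Not at hc
    choose! n hn using hc
    obtain ⟨M, hM⟩ := (hD.image n).bddAbove
    obtain ⟨Z, tZ, q, hq, z₀, S, h2, h3, h4⟩ := tower M
    obtain ⟨z, hz, hz'⟩ := hn (q z₀) h2 Z tZ q hq z₀ S rfl ((hM ⟨_, h2, rfl⟩).trans h3)
    exact hz' (h4 z hz).1 (h4 z hz).2
  obtain ⟨x₀, -, h2⟩ := h1
  obtain ⟨y₀, hy₀⟩ := hp.2.1 x₀
  have h3 : {y | Relation.ReflTransGen (OnRationalCurve E) y₀ y ∧ p y ∈ D}.Infinite := by
    intro hfin
    obtain ⟨Z, tZ, q, hq, z₀, S, h3, h4, h5⟩ := h2 (hfin.toFinset.card + 1)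
    obtain ⟨S', h6, h7⟩ := H527.exists_finset hp.1 hq (y₀ := y₀) (z₀ := z₀) (by rw [hy₀, h3]) D S h5
    have h8 : S' ⊆ hfin.toFinset := fun y hy =>
      hfin.mem_toFinset.2 ⟨chn_chain hp hα hinv (h7 y hy).1, (h7 y hy).2⟩
    have := Finset.card_le_card h8
    omega
  by_contra hc
  push Not at hc
  refine h3 (Finite.of_finite_fibers p (hD.subset ?_) ?_)
  · rintro _ ⟨y, hy, rfl⟩; exact hy.2
  · rintro _ ⟨y, hy, rfl⟩
    refine (hc y).subset fun z hz => ⟨hz.2, ?_⟩
    have : Std.Symm (OnRationalCurve E (V := V)) := ⟨fun _ _ h => h.symm⟩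
    exact (Std.Symm.symm _ _ hy.1).trans hz.1.1

theorem fibre_finite [T1Space X] {p : V → X} (hp : IsCoveringMap p) (x : X) {K : Set V}
    (hK : IsCompact K) : (K ∩ p ⁻¹' {x}).Finite := by
  refine (hK.inter_right (isClosed_singleton.preimage hp.continuous)).finite ?_
  rw [isDiscrete_iff_forall_mem_exists_isOpen]
  rintro y ⟨h1, h2⟩
  obtain ⟨U, hU, hyU, hi⟩ := hp.isLocalHomeomorph.isLocallyInjective y
  exact ⟨U, hU, Subset.antisymm (fun z hz => hi hz.1 hyU (hz.2.2.trans h2.symm))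
    (singleton_subset_iff.2 ⟨hyU, h1, h2⟩)⟩

end Vale.Agent.N300
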