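import Vale.Agent.P300.Final.Defs
import Mathlib.MeasureTheory.Integral.CircleAverage
import Mathlib.Topology.Semicontinuity.Basic

open scoped Manifold ContDiff Topology

namespace Vale.Agent.N300

open Vale.Agent.P300

/-- The real function `φ` on the complex manifold `V` (modelled on `E`) is plurisubharmonic: it is
upper semicontinuous, and has the sub-mean value property on every holomorphic disk. -/
def IsPsh (E : Type*) [NormedAddCommGroup E] [NormedSpace ℂ E]
    {V : Type*} [TopologicalSpace V] [ChartedSpace E V] (φ : V → ℝ) : Prop :=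
  UpperSemicontinuous φ ∧ ∀ (f : ℂ → V) (U : Set ℂ), IsOpen U → Metric.closedBall 0 1 ⊆ U →
    ContMDiffOn 𝓘(ℂ) 𝓘(ℂ, E) ω f U →
      CircleIntegrable (φ ∘ f) 0 1 ∧ φ (f 0) ≤ Real.circleAverage (φ ∘ f) 0 1

/-- The points `a` and `b` of `V` lie on a compact rational curve: they are values of a
holomorphic map from the complex plane to `V` which has a limit at infinity. -/
def OnRationalCurve (E : Type*) [NormedAddCommGroup E] [NormedSpace ℂ E]
    {V : Type*} [TopologicalSpace V] [ChartedSpace E V] (a b : V) : Prop :=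
  ∃ f : ℂ → V, ContMDiff 𝓘(ℂ) 𝓘(ℂ, E) ω f ∧
    (∃ y, Filter.Tendsto f (Filter.cocompact ℂ) (𝓝 y)) ∧ a ∈ Set.range f ∧ b ∈ Set.range f

/-- `X` is (the complex manifold of) a smooth connected projective variety modelled on `E`. -/
def IsProjVar (E : Type*) [NormedAddCommGroup E] [NormedSpace ℂ E]
    (X : Type*) [TopologicalSpace X] [ChartedSpace E X] : Prop :=
  IsManifold 𝓘(ℂ, E) ω X ∧ T2Space X ∧ CompactSpace X ∧ ConnectedSpace X ∧
    Final.IsSmoothProjective E X

/-- `X` has a universal covering, and for every universal covering `p : V → X`: `V` is not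
holomorphically convex; infinitely many points of one fibre of `p` are joined by chains of compact
rational curves, and every holomorphic function and every plurisubharmonic function on `V` takes
the same value at all of them; `V` has no plurisubharmonic exhaustion function. -/
def CoverFails (E : Type) [NormedAddCommGroup E] [NormedSpace ℂ E]
    (X : Type) [TopologicalSpace X] [ChartedSpace E X] : Prop :=
  (∃ (V : Type) (_ : TopologicalSpace V) (_ : ChartedSpace E V) (p : V → X),
    Final.IsUniversalCovering E p) ∧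
  ∀ (V : Type) (_ : TopologicalSpace V) (_ : ChartedSpace E V) (p : V → X),
    Final.IsUniversalCovering E p → ¬ HolomorphicallyConvex E V ∧
      (∃ (y₀ : V) (T : Set V), T.Infinite ∧ ∀ y ∈ T, p y = p y₀ ∧
        Relation.ReflTransGen (OnRationalCurve E) y₀ y ∧
        (∀ g : V → ℂ, ContMDiff 𝓘(ℂ, E) 𝓘(ℂ) ω g → g y = g y₀) ∧
        ∀ φ : V → ℝ, IsPsh E φ → φ y = φ y₀) ∧
      ¬ ∃ φ : V → ℝ, IsPsh E φ ∧ ∀ c : ℝ, IsCompact (closure {y | φ y < c})

end Vale.Agent.N300
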