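import Vale.Agent.P300.ASM.Sph
import Vale.Agent.P300.H242.Mob
import Vale.Agent.P300.Final.Defs

/-! The Riemann sphere as a smooth projective curve. -/

open Set Filter
open scoped Manifold ContDiff Topology LinearAlgebra.Projectivization

namespace Vale.Agent.N300

open Vale.Agent.P300 Vale.Agent.P300.ASM Vale.Agent.P300.H242

noncomputable def c0 : OpenPartialHomeomorph P1 ℂ where
  toFun := fin0
  invFun := fun z => (z : P1)
  source := {OnePoint.infty}ᶜ
  target := univ
  map_source' _ _ := trivial
  map_target' z _ := OnePoint.coe_ne_infty z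
  left_inv' _ h := (coe_fin0 h).symm
  right_inv' _ _ := rfl
  open_source := isOpen_compl_singleton
  open_target := isOpen_univ
  continuousOn_toFun _ h := (continuousAt_fin0 h).continuousWithinAt
  continuousOn_invFun := OnePoint.continuous_coe.continuousOn

theorem finI_inv1 (z : ℂ) : finI (inv1 z) = z := by
  by_cases h : z = 0
  · rw [h, inv1_zero, finI_infty]
  · rw [inv1_coe h, finI_coe, inv_inv]

noncomputable def c1 : OpenPartialHomeomorph P1 ℂ where
  toFun := finI
  invFun := fun z => inv1 (z : P1)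
  source := {((0 : ℂ) : P1)}ᶜ
  target := univ
  map_source' _ _ := trivial
  map_target' z _ h := OnePoint.coe_ne_infty z (by
    rw [← inv1_inv1 (z : P1), mem_singleton_iff.1 h, inv1_zero])
  left_inv' y h := by
    induction y using OnePoint.rec with
    | infty => rw [finI_infty, inv1_zero]
    | coe z =>
      have hz : z ≠ 0 := fun h1 => h (by rw [h1]; rfl)
      rw [finI_coe, inv1_coe (inv_ne_zero hz), inv_inv]
  right_inv' z _ := finI_inv1 z
  open_source := isOpen_compl_singleton
  open_target := isOpen_univ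
  continuousOn_toFun _ h := (continuousAt_finI h).continuousWithinAt
  continuousOn_invFun := (continuous_inv1.comp OnePoint.continuous_coe).continuousOn

@[simp] theorem c0_apply (y : P1) : c0 y = fin0 y := rfl
@[simp] theorem c1_apply (y : P1) : c1 y = finI y := rfl

open Classical in
@[reducible] noncomputable def csP : ChartedSpace ℂ P1 where
  atlas := {c0, c1}
  chartAt y := if y = OnePoint.infty then c1 else c0
  mem_chart_source y := by
    split_ifs with h
    · rw [h]; exact (OnePoint.coe_ne_infty _).symm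
    · exact h
  chart_mem_atlas y := by
    split_ifs
    · exact Or.inr rfl
    · exact Or.inl rfl

attribute [local instance] csP

theorem manP : IsManifold 𝓘(ℂ) ω P1 := by
  refine isManifold_of_contDiffOn _ _ _ fun e e' he he' => ?_
  simp only [modelWithCornersSelf_coe, modelWithCornersSelf_coe_symm, range_id, inter_univ,
    preimage_id_eq, id_eq, CompTriple.comp_eq]
  have hi : ContDiffOn ℂ ω (fun z : ℂ => z⁻¹) {0}ᶜ := contDiffOn_inv ℂ
  rcases he with rfl | rfl <;> rcases he' with rfl | rfl
  · exact contDiffOn_id.congr fun z _ => rfl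
  · exact (hi.mono fun z hz h => hz.2 (by rw [mem_singleton_iff.1 h]; rfl)).congr fun z _ => rfl
  · have : ∀ z ∈ (c1.symm ≫ₕ c0).source, z ≠ 0 := fun z hz h =>
      hz.2 (by rw [h]; exact inv1_zero)
    refine (hi.mono this).congr fun z hz => ?_
    exact congrArg fin0 (inv1_coe (this z hz))
  · exact contDiffOn_id.congr fun z _ => finI_inv1 z

noncomputable def vecP (y : P1) : Fin 2 → ℂ := y.elim ![1, 0] fun z => ![z, 1]

theorem vecP_ne (y : P1) : vecP y ≠ 0 := by
  induction y using OnePoint.rec with
  | infty => exact fun h => one_ne_zero (congrFun h 0)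
  | coe z => exact fun h => one_ne_zero (congrFun h 1)

theorem immP {e : OpenPartialHomeomorph P1 ℂ} (he : e ∈ atlas ℂ P1) {a b : Fin 2 → ℂ}
    (hab : ∀ v c d : ℂ, v • a = c • (d • a + b) → v = 0) :
    Final.IsHolomorphicOn ℂ (fun y => e y • a + b) e.source ∧
      ∀ y ∈ e.source, Final.IsImmersiveModScalars ℂ (fun y => e y • a + b) y := by
  have := manP
  have h1 : ContMDiffOn 𝓘(ℂ) 𝓘(ℂ) ω e e.source :=
    contMDiffOn_of_mem_maximalAtlas (IsManifold.subset_maximalAtlas he)
  have h2 : ContDiff ℂ ω fun z : ℂ => z • a + b := by fun_prop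
  refine ⟨⟨e.open_source, h2.contMDiff.comp_contMDiffOn h1⟩, fun y hy v c h => ?_⟩
  have hd := mdifferentiable_of_mem_atlas (I := 𝓘(ℂ)) he
  have h3 : HasMFDerivAt 𝓘(ℂ) 𝓘(ℂ, Fin 2 → ℂ) (fun z : ℂ => z • a + b) (e y)
      (ContinuousLinearMap.toSpanSingleton ℂ a) :=
    (((hasDerivAt_id (e y)).smul_const a).add_const b).hasFDerivAt.hasMFDerivAt.congr_mfderiv
      (by rw [one_smul]; rfl)
  have h4 := (h3.comp y (hd.mdifferentiableAt hy).hasMFDerivAt).mfderiv
  have h5 : Final.differential ℂ (fun y => e y • a + b) y v =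
      (show ℂ from mfderiv 𝓘(ℂ) 𝓘(ℂ) e y v) • a := DFunLike.congr_fun h4 v
  rw [h5] at h
  exact hd.mfderiv_injective hy ((hab _ _ _ h).trans (map_zero _).symm)

theorem projP : Final.IsSmoothProjective ℂ P1 := by
  refine ⟨1, fun y => Projectivization.mk ℂ (vecP y) (vecP_ne y), fun y y' h => ?_, fun x => ?_,
    ∅, fun _ h => h.elim, fun z hz => ⟨fun _ _ h => h.elim, fun _ => ?_⟩⟩
  · obtain ⟨a, ha⟩ := (Projectivization.mk_eq_mk_iff' _ _ _ _ _).1 h
    have h0 := congrFun ha 0
    have h1 := congrFun ha 1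
    induction y using OnePoint.rec <;> induction y' using OnePoint.rec <;>
      simp_all [vecP]
  · by_cases hx : x = OnePoint.infty
    · obtain ⟨h1, h2⟩ := immP (Or.inr rfl : c1 ∈ atlas ℂ P1) (a := ![0, 1]) (b := ![1, 0])
        fun v c d h => by
          have h0 : 0 = c := by simpa using congrFun h 0
          simpa [← h0] using congrFun h 1
      refine ⟨_, _, ?_, h1, fun y hy => ⟨fun h => by simpa using congrFun h 0, ?_⟩, h2⟩
      · rw [hx]; exact (OnePoint.coe_ne_infty _).symm
      · rw [Projectivization.mk_eq_mk_iff']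
        induction y using OnePoint.rec with
        | infty => exact ⟨1, by ext i; fin_cases i <;> simp [vecP]⟩
        | coe z =>
          have hz : z ≠ 0 := fun h1 => hy (by rw [h1]; rfl)
          exact ⟨z, by ext i; fin_cases i <;> simp [vecP, hz]⟩
    · obtain ⟨h1, h2⟩ := immP (Or.inl rfl : c0 ∈ atlas ℂ P1) (a := ![1, 0]) (b := ![0, 1])
        fun v c d h => by
          have h0 : 0 = c := by simpa using congrFun h 1
          simpa [← h0] using congrFun h 0
      refine ⟨_, _, hx, h1, fun y hy => ⟨fun h => by simpa using congrFun h 1, ?_⟩, h2⟩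
      rw [Projectivization.mk_eq_mk_iff']
      induction y using OnePoint.rec with
      | infty => exact absurd rfl hy
      | coe z => exact ⟨1, by ext i; fin_cases i <;> simp [vecP]⟩
  · by_cases h : z 1 = 0
    · have h0 : z 0 ≠ 0 := fun h0 => hz (by ext i; fin_cases i <;> simp [h, h0])
      refine ⟨OnePoint.infty, (Projectivization.mk_eq_mk_iff' _ _ _ _ _).2 ⟨(z 0)⁻¹, ?_⟩⟩
      ext i; fin_cases i <;> simp [vecP, h, h0]
    · refine ⟨(z 0 / z 1 : ℂ), (Projectivization.mk_eq_mk_iff' _ _ _ _ _).2 ⟨(z 1)⁻¹, ?_⟩⟩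
      ext i; fin_cases i <;> simp [vecP, h, div_eq_inv_mul]

end Vale.Agent.N300
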