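import Vale.Agent.N300.Segre
import Vale.Agent.N300.P1
import Vale.Agent.P300.H214.Final

/-! Counterexamples in all dimensions. -/

open Set Filter
open scoped Manifold ContDiff Topology

namespace Vale.Agent.N300

open Vale.Agent.P300

variable {E F E' : Type} [NormedAddCommGroup E] [NormedSpace ℂ E] [NormedAddCommGroup F]
  [NormedSpace ℂ F] [NormedAddCommGroup E'] [NormedSpace ℂ E'] (L : (E × F) ≃L[ℂ] E')
  {X Y : Type} [TopologicalSpace X] [ChartedSpace E X] [TopologicalSpace Y] [ChartedSpace F Y]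

theorem fails_of_inf (hX : IsProjVar E X) (h : Inf E X) : CoverFails E X := by
  obtain ⟨_, _, -, _, -⟩ := hX
  refine ⟨?_, fun V _ _ p hp => ?_⟩
  · obtain ⟨V, _, _, p, h1, h2, h3, -, -, hp, -⟩ := H903.exists_universalCover (E := E) X
    exact ⟨V, _, _, p, h1, h2, h3, hp⟩
  obtain ⟨y₀, hy⟩ := h V _ _ p hp
  have key : ∀ K, IsCompact K →
      ¬ {y | p y = p y₀ ∧ Relation.ReflTransGen (OnRationalCurve E) y₀ y} ⊆ K := fun K hK hs =>
    hy ((fibre_finite hp.covering.1 (p y₀) hK).subset fun y h => ⟨hs h, h.1⟩)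
  refine ⟨fun hc => key _ (hc {y₀} isCompact_singleton (singleton_nonempty _))
    fun y h g hg C hC => ?_, ⟨y₀, _, hy, fun y h =>
      ⟨h.1, h.2, fun g hg => hol_const h.2 hg, fun φ hφ => psh_const h.2 hφ⟩⟩,
    fun ⟨φ, h1, h2⟩ => key _ (h2 (φ y₀ + 1)) fun y h => subset_closure ?_⟩
  · rw [hol_const h.2 hg]; exact hC y₀ rfl
  · exact (psh_const h.2 h1).trans_lt (lt_add_one _)

theorem prod_good (hX : IsProjVar E X) (h : Inf E X) (hY : IsProjVar F Y) :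
    IsProjVar E' (Re (𝓘(ℂ, E).prod 𝓘(ℂ, F)) L (X × Y)) ∧
      Inf E' (Re (𝓘(ℂ, E).prod 𝓘(ℂ, F)) L (X × Y)) := by
  obtain ⟨_, _, _, _, a⟩ := hX
  obtain ⟨_, _, _, _, b⟩ := hY
  obtain ⟨y⟩ : Nonempty Y := inferInstance
  exact ⟨⟨re_manifold _ _ _, inferInstanceAs (T2Space (X × Y)),
    inferInstanceAs (CompactSpace (X × Y)), inferInstanceAs (ConnectedSpace (X × Y)),
    proj_prod L a b⟩, h.retract (i := fun x => up _ L _ (x, y))
      ((toRe _ L _).comp (contMDiff_id.prodMk contMDiff_const))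
      (r := fun z => (down _ L _ z).1) continuous_fst fun _ => rfl⟩

theorem surface : ∃ (X : Type) (_ : TopologicalSpace X) (_ : ChartedSpace (Fin 2 → ℂ) X),
    IsProjVar (Fin 2 → ℂ) X ∧ Inf (Fin 2 → ℂ) X :=
  ⟨ASM.XX (TOR.nodeSpecAll _) 0, inferInstance, inferInstance,
    ⟨inferInstance, inferInstance, inferInstance, inferInstance,
      Final.isSmoothProjective_iff.1 (H214.isSmoothProjective_XX _ 0)⟩,
    fun _ _ _ _ hp =>
      have := hp.simplyConnected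
      infinite_chain hp.covering (Curve.chains_XX _)⟩

theorem all_dims (n : ℕ) (hn : 2 ≤ n) :
    ∃ (X : Type) (_ : TopologicalSpace X) (_ : ChartedSpace (Fin n → ℂ) X),
      IsProjVar (Fin n → ℂ) X ∧ Inf (Fin n → ℂ) X := by
  induction n, hn using Nat.le_induction with
  | base => exact surface
  | succ n _ ih =>
    obtain ⟨X, _, _, h1, h2⟩ := ih
    let := csP
    exact ⟨_, _, _, prod_good (ContinuousLinearEquiv.ofFinrankEq (by simp)) h1 h2
      (⟨manP, inferInstance, inferInstance, inferInstance, projP⟩ : IsProjVar ℂ H242.P1)⟩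

theorem products : ∃ (X : Type) (_ : TopologicalSpace X) (_ : ChartedSpace (Fin 2 → ℂ) X),
    IsProjVar (Fin 2 → ℂ) X ∧
    ∀ (m : ℕ) (Y : Type) (_ : TopologicalSpace Y) (_ : ChartedSpace (Fin m → ℂ) Y),
      IsProjVar (Fin m → ℂ) Y →
      ∃ (Z : Type) (_ : TopologicalSpace Z) (_ : ChartedSpace (Fin (2 + m) → ℂ) Z),
        IsProjVar (Fin (2 + m) → ℂ) Z ∧
        Nonempty (Diffeomorph 𝓘(ℂ, Fin (2 + m) → ℂ) (𝓘(ℂ, Fin 2 → ℂ).prod 𝓘(ℂ, Fin m → ℂ))
          Z (X × Y) ω) ∧ CoverFails (Fin (2 + m) → ℂ) Z := by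
  obtain ⟨X, _, _, h1, h2⟩ := surface
  refine ⟨X, _, _, h1, fun m Y _ _ hY => ?_⟩
  have L : ((Fin 2 → ℂ) × (Fin m → ℂ)) ≃L[ℂ] (Fin (2 + m) → ℂ) :=
    ContinuousLinearEquiv.ofFinrankEq (by simp)
  obtain ⟨h3, h4⟩ := prod_good L h1 h2 hY
  exact ⟨_, _, _, h3, ⟨⟨⟨down _ L _, up _ L _, fun _ => rfl, fun _ => rfl⟩, ofRe _ L _,
    toRe _ L _⟩⟩, fails_of_inf h3 h4⟩

end Vale.Agent.N300
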