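import Vale.Agent.N300.Chain

/-! Change of the model space, and holomorphic retracts. -/

open Set Filter
open scoped Manifold ContDiff Topology

namespace Vale.Agent.N300

open Vale.Agent.P300

section Re

variable {E E' H : Type} [NormedAddCommGroup E] [NormedSpace ℂ E] [NormedAddCommGroup E']
  [NormedSpace ℂ E'] [TopologicalSpace H] (I : ModelWithCorners ℂ E H) [I.Boundaryless]
  (L : E ≃L[ℂ] E') (X : Type) [TopologicalSpace X] [ChartedSpace H X]

/-- The manifold `X` with charts in `E'`. -/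
def Re (_ : ModelWithCorners ℂ E H) (_ : E ≃L[ℂ] E') (X : Type) : Type := X

/-- The identity map. -/
def up (x : X) : Re I L X := x

/-- The identity map. -/
def down (x : Re I L X) : X := x

instance : TopologicalSpace (Re I L X) := inferInstanceAs (TopologicalSpace X)

noncomputable instance : ChartedSpace E' (Re I L X) where
  atlas := range fun x : X => (chartAt H x).transHomeomorph (I.toHomeomorph.trans L.toHomeomorph)
  chartAt x := (chartAt H (down I L X x)).transHomeomorph (I.toHomeomorph.trans L.toHomeomorph)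
  mem_chart_source x := mem_chart_source H (down I L X x)
  chart_mem_atlas x := ⟨x, rfl⟩

theorem re_manifold [IsManifold I ω X] : IsManifold 𝓘(ℂ, E') ω (Re I L X) := by
  refine isManifold_of_contDiffOn _ _ _ ?_
  rintro _ _ ⟨x, rfl⟩ ⟨y, rfl⟩
  refine (L.contDiff.comp_contDiffOn ((contDiffOn_ext_coord_change (I := I) (n := ω) y x).comp
    L.symm.contDiff.contDiffOn fun z hz => ?_)).congr fun z _ => rfl
  have h1 : I.symm (L.symm z) ∈ (chartAt H x).target := hz.1.1
  have h2 : (chartAt H x).symm (I.symm (L.symm z)) ∈ (chartAt H y).source := hz.1.2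
  simpa [I.range_eq_univ] using ⟨h1, h2⟩

theorem toRe : ContMDiff I 𝓘(ℂ, E') ω (up I L X) := fun x => by
  refine contMDiffAt_iff.2 ⟨continuousAt_id, ?_⟩
  have h : ∀ᶠ z in 𝓝 (extChartAt I x x), z ∈ (extChartAt I x).target :=
    (isOpen_extChartAt_target x).mem_nhds (mem_extChartAt_target x)
  refine (L.contDiff.contDiffAt.congr_of_eventuallyEq ?_).contDiffWithinAt
  filter_upwards [h] with z hz
  exact congrArg L ((extChartAt I x).right_inv hz)

theorem ofRe : ContMDiff 𝓘(ℂ, E') I ω (down I L X) := fun x => by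
  refine contMDiffAt_iff.2 ⟨continuousAt_id, ?_⟩
  have h : ∀ᶠ z in 𝓝 (extChartAt 𝓘(ℂ, E') x x), z ∈ (extChartAt 𝓘(ℂ, E') x).target :=
    (isOpen_extChartAt_target x).mem_nhds (mem_extChartAt_target x)
  refine (L.symm.contDiff.contDiffAt.congr_of_eventuallyEq ?_).contDiffWithinAt
  filter_upwards [h] with z hz
  exact L.eq_symm_apply.2 ((extChartAt 𝓘(ℂ, E') x).right_inv hz)

theorem ofRe_inj (x : Re I L X) (v : E')
    (h : mfderiv 𝓘(ℂ, E') I (down I L X) x v = 0) : v = 0 := by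
  have h1 := mfderiv_comp x ((toRe I L X _).mdifferentiableAt (by simp))
    ((ofRe I L X x).mdifferentiableAt (by simp))
  have h2 : mfderiv 𝓘(ℂ, E') 𝓘(ℂ, E') (id : Re I L X → Re I L X) x v = _ := DFunLike.congr_fun h1 v
  rw [mfderiv_id] at h2
  exact h2.trans ((congrArg (mfderiv I 𝓘(ℂ, E') (up I L X) (down I L X x)) h).trans (map_zero _))

end Re

/-- Every universal covering contains an infinite chain of rational curves. -/
def Inf (E : Type) [NormedAddCommGroup E] [NormedSpace ℂ E] (X : Type) [TopologicalSpace X]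
    [ChartedSpace E X] : Prop :=
  ∀ (V : Type) (_ : TopologicalSpace V) (_ : ChartedSpace E V) (p : V → X),
    Final.IsUniversalCovering E p → ∃ y₀ : V,
      {y | p y = p y₀ ∧ Relation.ReflTransGen (OnRationalCurve E) y₀ y}.Infinite

theorem Inf.retract {E E' : Type} [NormedAddCommGroup E] [NormedSpace ℂ E] [NormedAddCommGroup E']
    [NormedSpace ℂ E'] {X X' : Type} [TopologicalSpace X] [ChartedSpace E X] [TopologicalSpace X']
    [ChartedSpace E' X'] [IsManifold 𝓘(ℂ, E) ω X] [T2Space X] [ConnectedSpace X] (h : Inf E X)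
    {i : X → X'} (hi : ContMDiff 𝓘(ℂ, E) 𝓘(ℂ, E') ω i) {r : X' → X} (hr : Continuous r)
    (hri : ∀ x, r (i x) = x) : Inf E' X' := by
  intro V' _ _ p' hp'
  obtain ⟨V, _, _, p, h1, h2, h3, -, h4, hp, -⟩ := H903.exists_universalCover (E := E) X
  obtain ⟨y₀, hy⟩ := h V _ _ p ⟨h1, h2, h3, hp⟩
  have := hp'.simplyConnected
  have : LocallyPathConnectedSpace V' := ChartedSpace.locallyPathConnectedSpace E' V'
  obtain ⟨z₀, hz⟩ := hp'.covering.2.1 (i (p y₀))
  obtain ⟨j, ⟨j1, j2⟩, -⟩ := hp'.covering.1.existsUnique_continuousMap_lifts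
    ⟨i ∘ p, hi.continuous.comp hp.1.continuous⟩ y₀ z₀ hz
  obtain ⟨k, ⟨k1, k2⟩, -⟩ := hp.1.existsUnique_continuousMap_lifts
    ⟨r ∘ p', hr.comp hp'.covering.1.continuous⟩ z₀ y₀ (by simp [hz, hri])
  have j3 : ∀ y, p' (j y) = i (p y) := congrFun j2
  have hkj : k ∘ j = id := hp.1.eq_of_comp_eq (k.continuous.comp j.continuous) continuous_id
    (funext fun y => (congrFun k2 (j y)).trans (by simp [j3, hri])) y₀ (by simp [j1, k1])
  have hj : ContMDiff 𝓘(ℂ, E) 𝓘(ℂ, E') ω j := H673.lift_holomorphic hp'.covering.2.2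
    (hi.comp hp.2.2.contMDiff) j.continuous j3
  have hinj : Function.Injective j := Function.LeftInverse.injective (g := k) (congrFun hkj)
  refine ⟨j y₀, Set.Infinite.mono ?_ (hy.image hinj.injOn)⟩
  rintro _ ⟨y, ⟨a1, a2⟩, rfl⟩
  refine ⟨by rw [j3, j3, a1], a2.lift j ?_⟩
  rintro a b ⟨f, f1, ⟨c, f2⟩, ⟨s, rfl⟩, ⟨t, rfl⟩⟩
  exact ⟨j ∘ f, hj.comp f1, ⟨j c, (j.continuous.tendsto c).comp f2⟩, ⟨s, rfl⟩, ⟨t, rfl⟩⟩

end Vale.Agent.N300
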