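import Vale.Agent.N300.Model

/-! The Segre embedding: products of smooth projective manifolds are smooth projective. -/

open Set Filter MvPolynomial
open scoped Manifold ContDiff Topology LinearAlgebra.Projectivization

namespace Vale.Agent.N300

open Vale.Agent.P300

section alg

variable {N M K : ℕ} (e : Fin (K + 1) ≃ Fin (N + 1) × Fin (M + 1))

/-- The tensor product of two vectors. -/
def tens (a : Fin (N + 1) → ℂ) (b : Fin (M + 1) → ℂ) : Fin (K + 1) → ℂ :=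
  fun k => a (e k).1 * b (e k).2

theorem tens_symm (a : Fin (N + 1) → ℂ) (b : Fin (M + 1) → ℂ) (i j) :
    tens e a b (e.symm (i, j)) = a i * b j := by simp [tens]

theorem tens_ne {a : Fin (N + 1) → ℂ} {b : Fin (M + 1) → ℂ} (ha : a ≠ 0) (hb : b ≠ 0) :
    tens e a b ≠ 0 := fun h => by
  obtain ⟨i, hi⟩ := Function.ne_iff.1 ha
  obtain ⟨j, hj⟩ := Function.ne_iff.1 hb
  exact mul_ne_zero hi hj ((tens_symm e a b i j).symm.trans (congrFun h _))

/-- The Segre map. -/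
noncomputable def seg (x : ℙ ℂ (Fin (N + 1) → ℂ)) (y : ℙ ℂ (Fin (M + 1) → ℂ)) :
    ℙ ℂ (Fin (K + 1) → ℂ) :=
  Projectivization.mk ℂ (tens e x.rep y.rep) (tens_ne e x.rep_nonzero y.rep_nonzero)

theorem seg_mk {a : Fin (N + 1) → ℂ} {b : Fin (M + 1) → ℂ} (ha : a ≠ 0) (hb : b ≠ 0) :
    seg e (Projectivization.mk ℂ a ha) (Projectivization.mk ℂ b hb) =
      Projectivization.mk ℂ (tens e a b) (tens_ne e ha hb) := by
  obtain ⟨s, hs⟩ := Projectivization.exists_smul_eq_mk_rep ℂ a ha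
  obtain ⟨t, ht⟩ := Projectivization.exists_smul_eq_mk_rep ℂ b hb
  refine (Projectivization.mk_eq_mk_iff' _ _ _ _ _).2 ⟨s * t, funext fun k => ?_⟩
  simp only [← hs, ← ht, tens, Pi.smul_apply, Units.smul_def, smul_eq_mul]
  ring

theorem seg_inj {x x' : ℙ ℂ (Fin (N + 1) → ℂ)} {y y' : ℙ ℂ (Fin (M + 1) → ℂ)}
    (h : seg e x y = seg e x' y') : x = x' ∧ y = y' := by
  obtain ⟨c, hc⟩ := (Projectivization.mk_eq_mk_iff' _ _ _ _ _).1 h
  have h1 : ∀ i j, c * (x'.rep i * y'.rep j) = x.rep i * y.rep j := fun i j => by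
    simpa only [Pi.smul_apply, tens_symm, smul_eq_mul] using congrFun hc (e.symm (i, j))
  obtain ⟨i, hi⟩ := Function.ne_iff.1 x.rep_nonzero
  obtain ⟨j, hj⟩ := Function.ne_iff.1 y.rep_nonzero
  rw [Pi.zero_apply] at hi hj
  rw [← x.mk_rep, ← x'.mk_rep, ← y.mk_rep, ← y'.mk_rep, Projectivization.mk_eq_mk_iff',
    Projectivization.mk_eq_mk_iff']
  refine ⟨⟨c * y'.rep j / y.rep j, funext fun k => ?_⟩, c * x'.rep i / x.rep i, funext fun k => ?_⟩
  · rw [Pi.smul_apply, smul_eq_mul, div_mul_eq_mul_div, div_eq_iff hj, ← h1]; ring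
  · rw [Pi.smul_apply, smul_eq_mul, div_mul_eq_mul_div, div_eq_iff hi, mul_comm (y.rep k), ← h1]
    ring

theorem seg_zero {S T} {Z : Set (ℙ ℂ (Fin (N + 1) → ℂ))} {W : Set (ℙ ℂ (Fin (M + 1) → ℂ))}
    (hS : Final.IsZeroSetOf S Z) (hT : Final.IsZeroSetOf T W) :
    ∃ R, Final.IsZeroSetOf R (image2 (seg e) Z W) := by
  refine ⟨{Q | (∃ i j k l, Q = X (e.symm (i, j)) * X (e.symm (k, l)) -
      X (e.symm (i, l)) * X (e.symm (k, j))) ∨
    (∃ P ∈ S, ∃ i j, Q = X (e.symm (i, j)) * rename (fun i => e.symm (i, j)) P) ∨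
    ∃ P ∈ T, ∃ i j, Q = X (e.symm (i, j)) * rename (fun j => e.symm (i, j)) P}, ?_,
    fun z hz => ⟨?_, fun h => ?_⟩⟩
  · rintro _ (⟨i, j, k, l, rfl⟩ | ⟨P, hP, i, j, rfl⟩ | ⟨P, hP, i, j, rfl⟩)
    · exact ⟨_, ((isHomogeneous_X _ _).mul (isHomogeneous_X _ _)).sub
        ((isHomogeneous_X _ _).mul (isHomogeneous_X _ _))⟩
    · obtain ⟨d, hd⟩ := hS.1 P hP
      exact ⟨_, (isHomogeneous_X _ _).mul hd.rename_isHomogeneous⟩
    · obtain ⟨d, hd⟩ := hT.1 P hP
      exact ⟨_, (isHomogeneous_X _ _).mul hd.rename_isHomogeneous⟩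
  · rintro ⟨x, hx, y, hy, h⟩
    obtain ⟨c, hc⟩ := (Projectivization.mk_eq_mk_iff' _ _ _ _ _).1 h.symm
    have h1 : ∀ i j, z (e.symm (i, j)) = c * (x.rep i * y.rep j) := fun i j => by
      simpa only [Pi.smul_apply, tens_symm, smul_eq_mul] using (congrFun hc (e.symm (i, j))).symm
    rintro _ (⟨i, j, k, l, rfl⟩ | ⟨P, hP, i, j, rfl⟩ | ⟨P, hP, i, j, rfl⟩)
    · simp only [map_sub, map_mul, eval_X, h1]; ring
    · rw [map_mul, eval_X, eval_rename, mul_eq_zero, or_iff_not_imp_left]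
      intro h2
      refine (hS.2 _ (fun h3 => h2 (congrFun h3 i))).1 ?_ P hP
      rw [← x.mk_rep] at hx
      convert hx using 1
      exact (Projectivization.mk_eq_mk_iff' _ _ _ _ _).2 ⟨c * y.rep j, funext fun k => by
        simp only [Pi.smul_apply, smul_eq_mul, Function.comp_apply, h1]; ring⟩
    · rw [map_mul, eval_X, eval_rename, mul_eq_zero, or_iff_not_imp_left]
      intro h2
      refine (hT.2 _ (fun h3 => h2 (congrFun h3 j))).1 ?_ P hP
      rw [← y.mk_rep] at hy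
      convert hy using 1
      exact (Projectivization.mk_eq_mk_iff' _ _ _ _ _).2 ⟨c * x.rep i, funext fun k => by
        simp only [Pi.smul_apply, smul_eq_mul, Function.comp_apply, h1]; ring⟩
  · obtain ⟨k, hk⟩ := Function.ne_iff.1 hz
    obtain ⟨⟨i, j⟩, rfl⟩ := e.symm.surjective k
    rw [Pi.zero_apply] at hk
    have ha : (z ∘ fun i => e.symm (i, j)) ≠ 0 := fun h3 => hk (congrFun h3 i)
    have hb : (z ∘ fun j => e.symm (i, j)) ≠ 0 := fun h3 => hk (congrFun h3 j)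
    refine ⟨_, (hS.2 _ ha).2 fun P hP => ?_, _, (hT.2 _ hb).2 fun P hP => ?_, ?_⟩
    · have := h _ (Or.inr (Or.inl ⟨P, hP, i, j, rfl⟩))
      rw [map_mul, eval_X, eval_rename] at this
      exact (mul_eq_zero.1 this).resolve_left hk
    · have := h _ (Or.inr (Or.inr ⟨P, hP, i, j, rfl⟩))
      rw [map_mul, eval_X, eval_rename] at this
      exact (mul_eq_zero.1 this).resolve_left hk
    · rw [seg_mk, Projectivization.mk_eq_mk_iff']
      refine ⟨z (e.symm (i, j)), funext fun k => ?_⟩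
      obtain ⟨⟨k, l⟩, rfl⟩ := e.symm.surjective k
      have := h _ (Or.inl ⟨i, j, k, l, rfl⟩)
      simp only [map_sub, map_mul, eval_X] at this
      simp only [Pi.smul_apply, smul_eq_mul, tens_symm, Function.comp_apply]
      linear_combination this

end alg

variable {E F E' : Type} [NormedAddCommGroup E] [NormedSpace ℂ E] [NormedAddCommGroup F]
  [NormedSpace ℂ F] [NormedAddCommGroup E'] [NormedSpace ℂ E'] (L : (E × F) ≃L[ℂ] E')
  {X Y : Type} [TopologicalSpace X] [ChartedSpace E X] [TopologicalSpace Y] [ChartedSpace F Y]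

theorem proj_prod (hX : Final.IsSmoothProjective E X) (hY : Final.IsSmoothProjective F Y) :
    Final.IsSmoothProjective E' (Re (𝓘(ℂ, E).prod 𝓘(ℂ, F)) L (X × Y)) := by
  obtain ⟨N, Φ, a1, a2, S, a3⟩ := hX
  obtain ⟨M, Ψ, b1, b2, T, b3⟩ := hY
  let e : Fin (N * (M + 1) + M + 1) ≃ Fin (N + 1) × Fin (M + 1) :=
    (finCongr (by ring)).trans finProdFinEquiv.symm
  set d := down (𝓘(ℂ, E).prod 𝓘(ℂ, F)) L (X × Y) with hd
  have hdm : ContMDiff 𝓘(ℂ, E') (𝓘(ℂ, E).prod 𝓘(ℂ, F)) ω d := ofRe _ _ _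
  refine ⟨_, fun x => seg e (Φ (d x).1) (Ψ (d x).2), fun x y h => ?_, fun x => ?_, ?_⟩
  · exact Prod.ext (a1 (seg_inj e h).1) (b1 (seg_inj e h).2)
  · obtain ⟨W, s, s1, ⟨s2, s3⟩, s4, s5⟩ := a2 (d x).1
    obtain ⟨U, t, t1, ⟨t2, t3⟩, t4, t5⟩ := b2 (d x).2
    let A : (Fin (N + 1) → ℂ) →L[ℂ] (Fin (N * (M + 1) + M + 1) → ℂ) :=
      .pi fun k => .proj (e k).1
    let B : (Fin (M + 1) → ℂ) →L[ℂ] (Fin (N * (M + 1) + M + 1) → ℂ) :=
      .pi fun k => .proj (e k).2
    have m1 := s3.comp (contMDiff_fst.comp hdm).contMDiffOn (s := d ⁻¹' W ×ˢ U) fun y hy => hy.1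
    have m2 := t3.comp (contMDiff_snd.comp hdm).contMDiffOn (s := d ⁻¹' W ×ˢ U) fun y hy => hy.2
    have hm : ContDiff ℂ ω fun p : (Fin (N + 1) → ℂ) × (Fin (M + 1) → ℂ) => tens e p.1 p.2 := by
      unfold tens; fun_prop
    refine ⟨d ⁻¹' W ×ˢ U, fun y => tens e (s (d y).1) (t (d y).2), ⟨s1, t1⟩,
      ⟨(s2.prod t2).preimage hdm.continuous, hm.contMDiff.comp_contMDiffOn (m1.prodMk_space m2)⟩,
      fun y hy => ?_, fun y hy v c h => ?_⟩
    · obtain ⟨h1, h2⟩ := s4 _ hy.1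
      obtain ⟨h3, h4⟩ := t4 _ hy.2
      exact ⟨tens_ne e h1 h3, by simp only [h2, h4, seg_mk]⟩
    · have d0 := (hdm.mdifferentiableAt (by simp) (x := y)).hasMFDerivAt
      have d1 := (((s3.contMDiffAt (s2.mem_nhds hy.1)).mdifferentiableAt
        (by simp)).hasMFDerivAt.comp (d y) (hasMFDerivAt_fst (d y))).comp y d0
      have d2 := (((t3.contMDiffAt (t2.mem_nhds hy.2)).mdifferentiableAt
        (by simp)).hasMFDerivAt.comp (d y) (hasMFDerivAt_snd (d y))).comp y d0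
      have d3 := ((A.hasMFDerivAt.comp y d1).mul (B.hasMFDerivAt.comp y d2)).mfderiv
      set u : E × F := mfderiv 𝓘(ℂ, E') (𝓘(ℂ, E).prod 𝓘(ℂ, F)) d y v with hu
      have d4 : ∀ i j, s (d y).1 i * Final.differential F t (d y).2 u.2 j +
          t (d y).2 j * Final.differential E s (d y).1 u.1 i = c * (s (d y).1 i * t (d y).2 j) := by
        intro i j
        have h1 : s (d y).1 (e (e.symm (i, j))).1 *
            Final.differential F t (d y).2 u.2 (e (e.symm (i, j))).2 +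
            t (d y).2 (e (e.symm (i, j))).2 *
            Final.differential E s (d y).1 u.1 (e (e.symm (i, j))).1 =
            c * (s (d y).1 (e (e.symm (i, j))).1 * t (d y).2 (e (e.symm (i, j))).2) :=
          congrFun ((DFunLike.congr_fun d3 v).symm.trans h) (e.symm (i, j))
        rwa [e.apply_symm_apply] at h1
      obtain ⟨i, hi⟩ := Function.ne_iff.1 (s4 _ hy.1).1
      obtain ⟨j, hj⟩ := Function.ne_iff.1 (t4 _ hy.2).1
      rw [Pi.zero_apply] at hi hj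
      refine ofRe_inj _ L _ y v (Prod.ext
        (s5 _ hy.1 u.1 (c - Final.differential F t (d y).2 u.2 j / t (d y).2 j) ?_)
        (t5 _ hy.2 u.2 (c - Final.differential E s (d y).1 u.1 i / s (d y).1 i) ?_))
      · funext k
        rw [Pi.smul_apply, smul_eq_mul]
        field_simp
        linear_combination d4 k j
      · funext k
        rw [Pi.smul_apply, smul_eq_mul]
        field_simp
        linear_combination d4 i k
  · obtain ⟨R, hR⟩ := seg_zero e a3 b3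
    refine ⟨R, ?_⟩
    convert hR using 1
    ext z
    constructor
    · rintro ⟨x, rfl⟩
      exact ⟨_, ⟨_, rfl⟩, _, ⟨_, rfl⟩, rfl⟩
    · rintro ⟨_, ⟨x, rfl⟩, _, ⟨y, rfl⟩, rfl⟩
      exact ⟨up _ L _ (x, y), rfl⟩

end Vale.Agent.N300
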